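import Vale.Agent.P352.GFDefs

/-! Spectral measures built from finitely many particle levels. -/

open MeasureTheory Filter Topology

namespace Vale.Agent.P352W.Sp

open Vale.Agent.P352.GF

noncomputable section

/-- The closed forward cone. -/
def Fw (p : V) : Prop := 0 ≤ p o ∧ 0 ≤ mdot p p

theorem mdot_eq (x y : V) : mdot x y = x 0 * y 0 - x 1 * y 1 - x 2 * y 2 - x 3 * y 3 := by
  simp [mdot, eta, o, Fin.sum_univ_four]
  ring

theorem fw_zero : Fw 0 := by
  simp [Fw, mdot]

theorem fw_add {p q : V} (hp : Fw p) (hq : Fw q) : Fw (p + q) := by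
  obtain ⟨p0, p1⟩ := hp
  obtain ⟨q0, q1⟩ := hq
  rw [mdot_eq] at p1 q1
  simp only [o] at p0 q0
  have h1 : (p 1 * q 1 + p 2 * q 2 + p 3 * q 3) ^ 2 ≤ (p 0 * q 0) ^ 2 := by
    have a1 : (p 1 * q 1 + p 2 * q 2 + p 3 * q 3) ^ 2 ≤
        (p 1 * p 1 + p 2 * p 2 + p 3 * p 3) * (q 1 * q 1 + q 2 * q 2 + q 3 * q 3) := by
      nlinarith [sq_nonneg (p 1 * q 2 - p 2 * q 1), sq_nonneg (p 1 * q 3 - p 3 * q 1),
        sq_nonneg (p 2 * q 3 - p 3 * q 2)]
    have a2 : (p 1 * p 1 + p 2 * p 2 + p 3 * p 3) * (q 1 * q 1 + q 2 * q 2 + q 3 * q 3) ≤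
        (p 0 * p 0) * (q 0 * q 0) := by
      apply mul_le_mul (by linarith) (by linarith) _ (mul_self_nonneg _)
      nlinarith [mul_self_nonneg (q 1), mul_self_nonneg (q 2), mul_self_nonneg (q 3)]
    nlinarith
  have h2 := (abs_le_of_sq_le_sq' h1 (mul_nonneg p0 q0)).2
  refine ⟨by simp only [o, Pi.add_apply]; linarith, ?_⟩
  rw [mdot_eq]
  simp only [Pi.add_apply]
  nlinarith

theorem fw_sum {ι : Type*} (s : Finset ι) (x : ι → V) (h : ∀ i ∈ s, Fw (x i)) :
    Fw (∑ i ∈ s, x i) :=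
  Finset.sum_induction x Fw (fun _ _ => fw_add) fw_zero h

theorem mdot_cont (a : V) : Continuous fun p : V => mdot p a := by
  unfold mdot
  fun_prop

theorem fw_meas : MeasurableSet {p : V | Fw p} := by
  have h1 : Continuous fun p : V => mdot p p := by
    unfold mdot
    fun_prop
  have h2 : Continuous fun p : V => p o := continuous_apply o
  exact ((isClosed_le continuous_const h2).inter (isClosed_le continuous_const h1)).measurableSet

theorem ex_cont (a : V) : Continuous fun p : V => Complex.exp (Complex.I * mdot p a) :=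
  Complex.continuous_exp.comp
    (continuous_const.mul (Complex.continuous_ofReal.comp (mdot_cont a)))

theorem ex_norm (t : ℝ) : ‖Complex.exp (Complex.I * t)‖ = 1 := by
  rw [mul_comm]
  exact Complex.norm_exp_ofReal_mul_I t

theorem mdot_add (p q a : V) : mdot (p + q) a = mdot p a + mdot q a := by
  simp only [mdot_eq, Pi.add_apply]
  ring

theorem ex_sum {ι : Type*} (s : Finset ι) (x : ι → V) (a : V) :
    Complex.exp (Complex.I * mdot (∑ i ∈ s, x i) a) =
      ∏ i ∈ s, Complex.exp (Complex.I * mdot (x i) a) := by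
  classical
  induction s using Finset.induction_on with
  | empty => simp [mdot]
  | insert i s hi ih =>
    rw [Finset.sum_insert hi, Finset.prod_insert hi, mdot_add, ← ih, ← Complex.exp_add]
    push_cast
    ring_nf

/-- The push forward of a density by the total momentum. -/
def lv {X : Type*} [MeasurableSpace X] (m : Measure X) (P : X → V) (w : X → ℝ) : Measure V :=
  (m.withDensity fun x => ENNReal.ofReal (w x)).map P

section

variable {X : Type*} [MeasurableSpace X] {m : Measure X} {P : X → V} {w : X → ℝ}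

theorem lv_fin (hw : Integrable w m) : IsFiniteMeasure (lv m P w) := by
  have := isFiniteMeasure_withDensity_ofReal hw.2
  unfold lv
  infer_instance

theorem lv_ae (hP : Measurable P) {S : Set V} (hS : MeasurableSet S) (h : ∀ᵐ x ∂m, P x ∈ S) :
    ∀ᵐ p ∂lv m P w, p ∈ S := by
  unfold lv
  exact (ae_map_iff (p := fun y => y ∈ S) hP.aemeasurable hS).2
    ((withDensity_absolutelyContinuous m _).ae_le h)

theorem lv_int (hP : Measurable P) (hw : Integrable w m) (h0 : ∀ x, 0 ≤ w x) {F : V → ℂ}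
    (hF : Continuous F) : ∫ p, F p ∂lv m P w = ∫ x, (w x : ℂ) * F (P x) ∂m := by
  unfold lv
  rw [integral_map hP.aemeasurable hF.aestronglyMeasurable,
    integral_withDensity_eq_integral_toReal_smul₀
      (hw.aemeasurable.ennreal_ofReal) (Eventually.of_forall fun x => ENNReal.ofReal_lt_top)]
  refine integral_congr_ae (Eventually.of_forall fun x => ?_)
  simp only [ENNReal.toReal_ofReal (h0 x), Complex.real_smul]

theorem lv_univ (hP : Measurable P) (hw : Integrable w m) (h0 : ∀ x, 0 ≤ w x) :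
    (lv m P w).real Set.univ = ∫ x, w x ∂m := by
  unfold lv
  rw [measureReal_def, Measure.map_apply hP MeasurableSet.univ, Set.preimage_univ,
    withDensity_apply _ MeasurableSet.univ, Measure.restrict_univ,
    ← ofReal_integral_eq_lintegral_ofReal hw (Eventually.of_forall h0),
    ENNReal.toReal_ofReal (integral_nonneg h0)]

end

theorem z_meas : MeasurableSet {p : V | p o = 0} :=
  (isClosed_eq (continuous_apply o) continuous_const).measurableSet

/-- The spectral measure of finitely many levels; only level zero charges `p⁰ = 0`. -/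
theorem gen {X : ℕ → Type*} [∀ n, MeasurableSpace (X n)] (m : ∀ n, Measure (X n))
    (P : ∀ n, X n → V) (hP : ∀ n, Measurable (P n)) (w : ∀ n, X n → ℝ) (h0 : ∀ n x, 0 ≤ w n x)
    (hw : ∀ n, Integrable (w n) (m n)) (hc : ∀ n, ∀ᵐ x ∂m n, Fw (P n x))
    (hpos : ∀ n, n ≠ 0 → ∀ᵐ x ∂m n, 0 < P n x o) (s : Finset ℕ) :
    ∃ ν : Measure V, IsFiniteMeasure ν ∧ (∀ᵐ p ∂ν, 0 ≤ p o ∧ 0 ≤ mdot p p) ∧
      ν.real {p | p o = 0} ≤ ∫ x, w 0 x ∂m 0 ∧
      ∀ a, ∑ n ∈ s, ∫ x, (w n x : ℂ) * Complex.exp (Complex.I * mdot (P n x) a) ∂m n =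
        ∫ p, Complex.exp (Complex.I * mdot p a) ∂ν := by
  have : ∀ n, IsFiniteMeasure (lv (m n) (P n) (w n)) := fun n => lv_fin (hw n)
  refine ⟨∑ n ∈ s, lv (m n) (P n) (w n), inferInstance, ?_, ?_, fun a => ?_⟩
  · rw [ae_finsetSum_measure_iff]
    exact fun n _ => lv_ae (S := {p | Fw p}) (hP n) fw_meas (hc n)
  · have hz : ∀ n, n ≠ 0 → (lv (m n) (P n) (w n)).real {p | p o = 0} = 0 := fun n hn => by
      have h1 := lv_ae (w := w n) (S := {p | p o = 0}ᶜ) (hP n) z_meas.compl
        ((hpos n hn).mono fun x hx => hx.ne')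
      rw [measureReal_def, compl_mem_ae_iff.1 h1, ENNReal.toReal_zero]
    have h2 : (∑ n ∈ s, lv (m n) (P n) (w n)).real {p | p o = 0} =
        ∑ n ∈ s, (lv (m n) (P n) (w n)).real {p | p o = 0} := by
      simp only [measureReal_def, Measure.finsetSum_apply]
      exact ENNReal.toReal_sum fun n _ => measure_ne_top _ _
    rw [h2, ← lv_univ (hP 0) (hw 0) (h0 0)]
    by_cases h : 0 ∈ s
    · rw [Finset.sum_eq_single_of_mem 0 h fun n _ hn => hz n hn]
      exact measureReal_mono (Set.subset_univ _)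
    · rw [Finset.sum_eq_zero fun n hn => hz n fun e => h (e ▸ hn)]
      exact measureReal_nonneg
  · rw [integral_finsetSum_measure fun n _ =>
      (integrable_const (1 : ℝ)).mono' (ex_cont a).aestronglyMeasurable
        (Eventually.of_forall fun p => (ex_norm _).le)]
    exact Finset.sum_congr rfl fun n _ => (lv_int (hP n) (hw n) (h0 n) (ex_cont a)).symm

/-- The same on the powers of a one particle measure carried by the forward cone. -/
theorem genPi (μ : Measure V) [SigmaFinite μ] (hμ : ∀ᵐ p ∂μ, 0 < p o ∧ 0 ≤ mdot p p)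
    (w : ∀ n, (Fin n → V) → ℝ) (h0 : ∀ n x, 0 ≤ w n x)
    (hw : ∀ n, Integrable (w n) (Measure.pi fun _ => μ)) (s : Finset ℕ) :
    ∃ ν : Measure V, IsFiniteMeasure ν ∧ (∀ᵐ p ∂ν, 0 ≤ p o ∧ 0 ≤ mdot p p) ∧
      ν.real {p | p o = 0} ≤ w 0 default ∧
      ∀ a, ∑ n ∈ s, ∫ x, (w n x : ℂ) * ∏ i, Complex.exp (Complex.I * mdot (x i) a)
          ∂(Measure.pi fun _ => μ) = ∫ p, Complex.exp (Complex.I * mdot p a) ∂ν := by
  have ha : ∀ n, ∀ᵐ x ∂(Measure.pi fun _ : Fin n => μ),
      ∀ i, 0 < x i o ∧ 0 ≤ mdot (x i) (x i) := fun n =>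
    ae_all_iff.2 fun i => (Measure.tendsto_eval_ae_ae (μ := fun _ : Fin n => μ)).eventually hμ
  obtain ⟨ν, h1, h2, h3, h4⟩ := gen (fun n => Measure.pi fun _ : Fin n => μ)
    (fun n x => ∑ i, x i) (fun n => Finset.measurable_sum _ fun i _ => measurable_pi_apply i)
    w h0 hw (fun n => (ha n).mono fun x hx => fw_sum _ _ fun i _ => ⟨(hx i).1.le, (hx i).2⟩)
    (fun n hn => (ha n).mono fun x hx => by
      rw [Finset.sum_apply]
      have : Nonempty (Fin n) := ⟨⟨0, Nat.pos_of_ne_zero hn⟩⟩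
      exact Finset.sum_pos (fun i _ => (hx i).1) Finset.univ_nonempty) s
  refine ⟨ν, h1, h2, h3.trans_eq ?_, fun a => ?_⟩
  · rw [integral_unique]
    simp only [measureReal_def, Measure.pi_univ, Finset.univ_eq_empty, Finset.prod_empty,
      ENNReal.toReal_one, one_smul]
    exact congrArg (w 0) (Subsingleton.elim _ _)
  · rw [← h4 a]
    simp only [ex_sum]

end

end Vale.Agent.P352W.Sp
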