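import Vale.Agent.P352W.Fk.Bas
import Vale.Agent.P352W.Fk.Mec
import Vale.Agent.P352W.Sp.Gen

/-! # The spectrum condition on the Fock space -/

set_option linter.all false

open MeasureTheory Filter Topology
open scoped ENNReal ComplexConjugate Classical Nat

namespace Vale.Agent.P352W.Fk

open Vale.Agent.P352.GF Vale.Agent.P352W.Cn
open Vale.Agent.P352.H246 (linv)

noncomputable section

/-- the total momentum -/
def tot (c : Cf) : V := ∑ i, c.2 i

theorem meas_tot : Measurable tot :=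
  meas_sig fun n => by
    show Measurable fun x : Fin n → V => ∑ i, x i
    fun_prop

theorem sim_id (p : V) : sim 1 (linv one) 0 p = p := by
  funext n
  fin_cases n <;> simp [sim, linv, one, bas, eta, o, Fin.sum_univ_four]

theorem gm_tr (a : V) (ψ : Wf) (c : Cf) :
    gm 1 one a ψ (mu c) = Complex.exp (Complex.I * mdot (tot c) a) * ψ (mu c) := by
  have e : sim 1 (linv one) 0 = id := funext sim_id
  unfold gm tot
  rw [e, Multiset.map_id, Sp.ex_sum, mu, prod_ms]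
  simp

theorem vc_ms {n : ℕ} (hn : n ≠ 0) (x : Fin n → V) : vc (ms x) = 0 :=
  if_neg fun h => hn (by rw [← card_ms x, h, Multiset.card_zero])

theorem ip_vc {ψ : Wf} (h : Nice ψ) : ip vc ψ = ψ 0 := by
  have h1 := lam_sum (G := fun σ => conj (vc σ) * ψ σ) (nice_vc.conj.mul h).int
  refine h1.unique ?_
  have h2 := hasSum_single (f := fun n : ℕ => (n ! : ℂ)⁻¹ *
    ∫ x : Fin n → V, conj (vc (ms x)) * ψ (ms x) ∂Mec.pw n) 0 fun n hn => by
      simp [vc_ms hn]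
  have h3 : ((0 : ℕ)! : ℂ)⁻¹ *
      ∫ x : Fin 0 → V, conj (vc (ms x)) * ψ (ms x) ∂Mec.pw 0 = ψ 0 := by
    simp [ms_zero, vc, measureReal_def]
  rwa [h3] at h2

theorem lv_set {X : Type*} [MeasurableSpace X] {m : Measure X} {P : X → V} {w : X → ℝ}
    (hP : Measurable P) (hw : Integrable w m) (h0 : ∀ x, 0 ≤ w x) {S : Set V}
    (hS : MeasurableSet S) : (Sp.lv m P w).real S = ∫ x, (P ⁻¹' S).indicator w x ∂m := by
  unfold Sp.lv
  rw [measureReal_def, Measure.map_apply hP hS, withDensity_apply _ (hP hS),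
    ← ofReal_integral_eq_lintegral_ofReal hw.integrableOn (Eventually.of_forall h0),
    ENNReal.toReal_ofReal (integral_nonneg h0), integral_indicator (hP hS)]

theorem spec_fn {ψ : Wf} (h : Nice ψ) : ∃ ν : Measure V, IsFiniteMeasure ν ∧
    (∀ᵐ p ∂ν, 0 ≤ p o ∧ 0 ≤ mdot p p) ∧ ν.real {p | p o = 0} = ‖ψ 0‖ ^ 2 ∧
    ∀ a, ip ψ (gm 1 one a ψ) = ∫ p, Complex.exp (Complex.I * mdot p a) ∂ν := by
  have hw : Integrable (fun c => ‖ψ (mu c)‖ ^ 2) Lam :=
    (memLp_two_iff_integrable_sq_norm h.memLp.1).1 h.memLp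
  have h0 : ∀ c, 0 ≤ ‖ψ (mu c)‖ ^ 2 := fun c => sq_nonneg _
  have e : ∀ z : ℂ, conj z * z = ((‖z‖ ^ 2 : ℝ) : ℂ) := fun z => by
    rw [Complex.conj_mul']
    push_cast
    rfl
  refine ⟨Sp.lv Lam tot fun c => ‖ψ (mu c)‖ ^ 2, Sp.lv_fin hw, ?_, ?_, fun a => ?_⟩
  · exact Sp.lv_ae (S := {p | Sp.Fw p}) meas_tot Sp.fw_meas (ae_null.mono fun c hc =>
      Sp.fw_sum _ _ fun i _ => ⟨(hc i).1.le, (hc i).2.ge⟩)
  · rw [lv_set meas_tot hw h0 Sp.z_meas]
    apply Complex.ofReal_injective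
    rw [← e, ← ip_vc (h.conj.mul h), ← integral_complex_ofReal]
    refine integral_congr_ae (ae_null.mono fun c hc => ?_)
    obtain ⟨n, x⟩ := c
    rcases n with _ | n
    · have : (⟨0, x⟩ : Cf) ∈ tot ⁻¹' {p | p o = 0} := by simp [tot]
      simp only [Set.indicator_of_mem this, mu, ms_zero, e, vc]
      simp
    · have : (⟨n + 1, x⟩ : Cf) ∉ tot ⁻¹' {p | p o = 0} := by
        have : 0 < ∑ i, x i o := Finset.sum_pos (fun i _ => (hc i).1) Finset.univ_nonempty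
        simpa [tot] using this.ne'
      simp only [Set.indicator_of_notMem this, mu, vc_ms n.succ_ne_zero]
      simp
  · rw [Sp.lv_int meas_tot hw h0 (Sp.ex_cont a)]
    refine integral_congr_ae (Eventually.of_forall fun c => ?_)
    simp only [gm_tr, ← e]
    ring

theorem isD_all (hN : ∀ ψ, Wd ψ → Nice ψ) (v : D) : IsD v.1 := by
  refine Submodule.span_induction (p := fun v _ => IsD v) (fun v hv => hv)
    ⟨0, Wd.zero, toL_zero⟩ ?_ ?_ v.2
  · rintro _ _ _ _ ⟨ψ, h, rfl⟩ ⟨χ, h', rfl⟩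
    exact ⟨ψ + χ, h.add h', toL_add (hN _ h) (hN _ h')⟩
  · rintro c _ _ ⟨ψ, h, rfl⟩
    exact ⟨c • ψ, h.smul c, toL_smul c (hN _ h)⟩

/-- the field `spec` of the contract -/
theorem spec_of (hN : ∀ ψ, Wd ψ → Nice ψ) (hU : ∀ a ψ, Wd ψ → Wd (gm 1 one a ψ)) (v : D) :
    ∃ ν : Measure V, IsFiniteMeasure ν ∧ (∀ᵐ p ∂ν, 0 ≤ p o ∧ 0 ≤ mdot p p) ∧
      ν.real {p | p o = 0} ≤ ‖inner ℂ Ω v‖ ^ 2 ∧
      ∀ a, inner ℂ v (UU 1 one a v) = ∫ p, Complex.exp (Complex.I * mdot p a) ∂ν := by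
  have hv := isD_all hN v
  have hr : Wd (rep v) ∧ toL (rep v) = v.1 := by
    unfold rep
    rw [dif_pos hv]
    exact hv.choose_spec
  have hm : ∀ ψ, Wd ψ → (mk ψ).1 = toL ψ := fun ψ h => by
    unfold mk
    rw [dif_pos h]
  obtain ⟨ν, h1, h2, h3, h4⟩ := spec_fn (hN _ hr.1)
  refine ⟨ν, h1, h2, h3.le.trans_eq ?_, fun a => ?_⟩
  · rw [Submodule.coe_inner, Ω, hm _ Wd.vc, ← hr.2, inner_toL nice_vc (hN _ hr.1),
      ip_vc (hN _ hr.1)]
  · rw [Submodule.coe_inner, UU, op, hm _ (hU a _ hr.1), ← hr.2,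
      inner_toL (hN _ hr.1) (hN _ (hU a _ hr.1)), h4]

end

end Vale.Agent.P352W.Fk
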